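import Vale.Agent.Lib.P243.Cop5
import Vale.Agent.Lib.P243.Cop9

open MeasureTheory Submodule Module

/-- Bang's half-area cylinder covering problem: sharp special cases. Let `K` be a convex body in a
Euclidean three-space `E`, covered by finitely many cylinders `B i + ℝ u i`, where `u i` is a unit
vector and `B i` is a subset of the plane orthogonal to `u i`, with its planar Lebesgue outer measure.
(1) If all axes `u i` are parallel to one plane with unit normal `w`, then the sum of the base areas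
is at least one half of the infimum of the shadow areas along the directions in that plane, hence at
least one half of the smallest shadow area of `K`.
(2) If there are at most two cylinders, then the sum of the relative base areas is at least `1 / 2`.
(3) In general, with `x i` the relative base area truncated at `1`, one has
`1 ≤ ∑ i, (3 x i - 2 x i √(x i))`.
(4) Consequently, with `m` cylinders: if `0 ≤ t < 1` and `m (3 t - 2 t √t) ≤ 1` then the sum of the
relative base areas is at least `m t`. -/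
theorem Vale.Agent.Results.P243.A_half.result
    {E : Type} [NormedAddCommGroup E] [InnerProductSpace ℝ E] [FiniteDimensional ℝ E]
    [MeasurableSpace E] [BorelSpace E] (hE : finrank ℝ E = 3)
    (K : Set E) (hc : Convex ℝ K) (hK : IsCompact K) (hi : (interior K).Nonempty)
    {ι : Type} [Fintype ι] (u : ι → E) (hu : ∀ i, ‖u i‖ = 1)
    (B : (i : ι) → Set (ℝ ∙ u i)ᗮ)
    (hcov : ∀ x ∈ K, ∃ i, (ℝ ∙ u i)ᗮ.orthogonalProjectionOnto x ∈ B i) :
    (∀ w : E, ‖w‖ = 1 → (∀ i, inner ℝ (u i) w = 0) →
      ENNReal.ofReal (1 / 2) *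
          (⨅ v : {v : E // ‖v‖ = 1 ∧ inner ℝ v w = 0},
            volume ((ℝ ∙ (v : E))ᗮ.orthogonalProjectionOnto '' K))
        ≤ ∑ i, volume (B i) ∧
      ENNReal.ofReal (1 / 2) *
          (⨅ v : {v : E // ‖v‖ = 1}, volume ((ℝ ∙ (v : E))ᗮ.orthogonalProjectionOnto '' K))
        ≤ ∑ i, volume (B i)) ∧
    (Fintype.card ι ≤ 2 →
      ENNReal.ofReal (1 / 2)
        ≤ ∑ i, volume (B i) / volume ((ℝ ∙ u i)ᗮ.orthogonalProjectionOnto '' K)) ∧
    (∀ x : ι → ℝ,
      (∀ i, x i = (min (volume (B i) / volume ((ℝ ∙ u i)ᗮ.orthogonalProjectionOnto '' K)) 1).toReal) →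
      1 ≤ ∑ i, (3 * x i - 2 * x i * Real.sqrt (x i))) ∧
    (∀ t : ℝ, 0 ≤ t → t < 1 → (Fintype.card ι : ℝ) * (3 * t - 2 * t * Real.sqrt t) ≤ 1 →
      ENNReal.ofReal ((Fintype.card ι : ℝ) * t)
        ≤ ∑ i, volume (B i) / volume ((ℝ ∙ u i)ᗮ.orthogonalProjectionOnto '' K)) := by
  refine ⟨fun w hw huw => ?_, Vale.Agent.Lib.P243.Cop.two_cylinders hE hc hK hi u hu B hcov, ?_, ?_⟩
  · have h := Vale.Agent.Lib.P243.Cop.coplanar_half hE hc hK hi u hu hw huw B hcov
    refine ⟨h, le_trans ?_ h⟩
    gcongr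
    exact le_iInf fun v => iInf_le_of_le ⟨v.1, v.2.1⟩ le_rfl
  · intro x hx
    have h := Vale.Agent.Lib.P243.Cop.capf_sum hE hc hK hi u hu B hcov
    simpa [Vale.Agent.Lib.P243.Cop.capf, hx] using h
  · intro t h0 h1 hm
    exact Vale.Agent.Lib.P243.Cop.card_bound hE hc hK hi u hu B hcov h0 h1 hm
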