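import Vale.Agent.Results.P243.A_abs
import Vale.Agent.Results.P243.A_half
import Vale.Agent.Results.P243.A_strict
import Vale.Agent.Results.P243.B_symm

namespace Vale.Agent.Results.P243.A00_master

open MeasureTheory Submodule Module Vale.Agent.Lib.P243

/-- The smallest area of an orthogonal projection of `K` onto a plane. -/
noncomputable def aMin {E : Type} [NormedAddCommGroup E] [InnerProductSpace ℝ E]
    [FiniteDimensional ℝ E] [MeasurableSpace E] [BorelSpace E] (K : Set E) : ENNReal :=
  ⨅ v : {v : E // ‖v‖ = 1}, volume ((ℝ ∙ (v : E))ᗮ.orthogonalProjectionOnto '' K)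

/-- The bounds for one convex body `K` and one covering: the sum of the base areas is at least
`(1 + 10⁻⁹) / 3` times `aMin K`, and at least `1 / 2` times `aMin K` if all axes are parallel to
one plane; the directionwise relative area is at least `1 / 2` for at most two cylinders, and at
least `5 / 12` if `K` is centrally symmetric. -/
def Bounds {E : Type} [NormedAddCommGroup E] [InnerProductSpace ℝ E]
    [FiniteDimensional ℝ E] [MeasurableSpace E] [BorelSpace E] (K : Set E)
    {ι : Type} [Fintype ι] (u : ι → E) (B : (i : ι) → Set (ℝ ∙ u i)ᗮ) : Prop :=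
  ENNReal.ofReal ((1 + 1 / 10 ^ 9) / 3) * aMin K ≤ ∑ i, volume (B i) ∧
  (∀ w : E, ‖w‖ = 1 → (∀ i, inner ℝ (u i) w = 0) →
    ENNReal.ofReal (1 / 2) * aMin K ≤ ∑ i, volume (B i)) ∧
  (Fintype.card ι ≤ 2 → ENNReal.ofReal (1 / 2) ≤ relArea K u B) ∧
  ((∀ x ∈ K, -x ∈ K) → (5 / 12 : ENNReal) ≤ relArea K u B)

/-- Bang's cylinder covering problem in three dimensions: every finite covering of a convex body by
cylinders satisfies all the bounds `Bounds`, and there is an absolute constant `c > 1 / 3` with
relative area at least `c`, for every covering of every convex body. -/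
theorem result :
    (∃ c : ℝ, 1 / 3 < c ∧
      ∀ {E : Type} [NormedAddCommGroup E] [InnerProductSpace ℝ E] [FiniteDimensional ℝ E]
        [MeasurableSpace E] [BorelSpace E], finrank ℝ E = 3 →
      ∀ K : Set E, Convex ℝ K → IsCompact K → (interior K).Nonempty →
      ∀ {ι : Type} [Fintype ι] (u : ι → E), (∀ i, ‖u i‖ = 1) →
      ∀ B : (i : ι) → Set (ℝ ∙ u i)ᗮ, CylinderCover K u B →
        ENNReal.ofReal c ≤ relArea K u B) ∧
    (∀ {E : Type} [NormedAddCommGroup E] [InnerProductSpace ℝ E] [FiniteDimensional ℝ E]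
        [MeasurableSpace E] [BorelSpace E], finrank ℝ E = 3 →
      ∀ K : Set E, Convex ℝ K → IsCompact K → (interior K).Nonempty →
      ∀ {ι : Type} [Fintype ι] (u : ι → E), (∀ i, ‖u i‖ = 1) →
      ∀ B : (i : ι) → Set (ℝ ∙ u i)ᗮ, CylinderCover K u B → Bounds K u B) := by
  refine ⟨Vale.Agent.Results.P243.A_strict.result, ?_⟩
  intro E _ _ _ _ _ hE K hc hK hi ι _ u hu B hcov
  have h2 := Vale.Agent.Results.P243.A_half.result hE K hc hK hi u hu B hcov
  exact ⟨Vale.Agent.Results.P243.A_abs.result hE K hc hK hi u hu B hcov,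
    fun w hw huw => (h2.1 w hw huw).2, h2.2.1,
    fun hs => Vale.Agent.Results.P243.B_symm.result hE K hc hK hi hs u hu B hcov⟩

end Vale.Agent.Results.P243.A00_master
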