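import Vale.Agent.Lib.P243.Abs5

open MeasureTheory Submodule Module

/-- Bang's cylinder covering problem, lower bound beyond `1 / 3` for every convex body. Let `K` be a
convex body in a Euclidean three-space `E`, covered by finitely many cylinders `B i + ℝ u i`, where
`u i` is a unit vector and `B i` is a subset of the plane orthogonal to `u i`, with its planar
Lebesgue outer measure. Then the sum of the base areas is at least `(1 + 10⁻⁹) / 3` times the smallest
area of an orthogonal projection of `K` onto a plane. -/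
theorem Vale.Agent.Results.P243.A_abs.result
    {E : Type} [NormedAddCommGroup E] [InnerProductSpace ℝ E] [FiniteDimensional ℝ E]
    [MeasurableSpace E] [BorelSpace E] (hE : finrank ℝ E = 3)
    (K : Set E) (hc : Convex ℝ K) (hK : IsCompact K) (hi : (interior K).Nonempty)
    {ι : Type} [Fintype ι] (u : ι → E) (hu : ∀ i, ‖u i‖ = 1)
    (B : (i : ι) → Set (ℝ ∙ u i)ᗮ)
    (hcov : ∀ x ∈ K, ∃ i, (ℝ ∙ u i)ᗮ.orthogonalProjectionOnto x ∈ B i) :
    ENNReal.ofReal ((1 + 1 / 10 ^ 9) / 3) *
        (⨅ v : {v : E // ‖v‖ = 1}, volume ((ℝ ∙ (v : E))ᗮ.orthogonalProjectionOnto '' K))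
      ≤ ∑ i, volume (B i) := by
  obtain ⟨v, hv, h⟩ := Vale.Agent.Lib.P243.Abs.abs_main hE hc hK hi u hu B hcov
  refine le_trans ?_ h
  have e : Vale.Agent.Lib.P243.Abs.gam = 1 / 10 ^ 9 := rfl
  rw [e]
  gcongr
  exact iInf_le (fun v : {v : E // ‖v‖ = 1} =>
    volume ((ℝ ∙ (v : E))ᗮ.orthogonalProjectionOnto '' K)) ⟨v, hv⟩
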